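import Vale.Agent.P269.G1.H333.Fn

/-!
# [D] the core: the Virasoro functions in genus one satisfy the linearised recursion
-/

namespace Vale.Agent.P269.G1.H333

open Vale.Agent.P269.H597 Vale.Agent.P269.H597.Coh

variable {K : Type*} [CommRing K] {ι : Type*} [Fintype ι] [DecidableEq ι]
variable {D : Coh K ι} {F : List (ι × ℕ) → K}

section even

variable (hev : ∀ a, D.par a = false)

include hev

theorem ip_eq : D.ip = ev0 (ι × ℕ) := funext fun i => hev i.1

theorem lsg_one (a : Bool) (L : List (ι × ℕ)) : lsg K D.ip a L = 1 := by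
  rw [ip_eq hev]
  exact lsg0 a L

theorem sn_one (a : ι) : D.sn a = 1 := by
  unfold Coh.sn
  rw [hev]
  simp

theorem S_id (a : Bool) (v : ι × ℕ →₀ K) : S D.ip a false v = v := by
  have := finsupp_lin_ext (f := S (K := K) D.ip a false) (g := LinearMap.id) (fun i => by
    rw [S_single]
    have : D.ip i = false := hev i.1
    rw [this]
    simp) v
  simpa using this

theorem pv (c : List (ι × ℕ) → (ι × ℕ →₀ K)) : PV D.ip false c := by
  intro a M
  rw [lsg_one hev, one_smul, S_id hev]

theorem parPhi (Φ : ι × ℤ → List (ι × ℕ) → K) : D.ParPhi Φ := by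
  intro b a n L
  rw [lsg_one hev, hev]
  simp

theorem sym2 {C : List (ι × ℕ) → K} (hC : SymF (K := K) D.ip C) (i j : ι × ℕ)
    (M : List (ι × ℕ)) : C (i :: j :: M) = C (j :: i :: M) := by
  have h := hC [] M i j
  have h1 : D.ip i = false := hev i.1
  rw [h1, sg_false_left, one_smul] at h
  exact h

theorem sym3 {C : List (ι × ℕ) → K} (hC : SymF (K := K) D.ip C) (k i j : ι × ℕ)
    (M : List (ι × ℕ)) : C (k :: i :: j :: M) = C (k :: j :: i :: M) := by
  have h := hC [k] M i j
  have h1 : D.ip i = false := hev i.1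
  rw [h1, sg_false_left, one_smul] at h
  exact h

/-- derivative of the action -/
theorem act_cons' (c : List (ι × ℕ) → (ι × ℕ →₀ K)) {C : List (ι × ℕ) → K}
    (hC : ∀ (i j : ι × ℕ) (M : List (ι × ℕ)), C (i :: j :: M) = C (j :: i :: M)) (i : ι × ℕ)
    (L : List (ι × ℕ)) :
    act D.ip c C (i :: L) = act D.ip (fun M => c (i :: M)) C L +
      act D.ip c (fun M => C (i :: M)) L := by
  refine act_cons D.ip (pv hev c) C i L fun j M => ?_
  have h1 : D.ip i = false := hev i.1
  rw [h1, sg_false_left, one_smul]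
  exact hC j i M

end even

theorem dec (v : ι × ℕ →₀ K) :
    v = (∑ b, Finsupp.single (b, 0) (v (b, 0))) + zop (low v) := by
  have := finsupp_lin_ext (f := (LinearMap.id : (ι × ℕ →₀ K) →ₗ[K] (ι × ℕ →₀ K)))
    (g := (∑ b, (Finsupp.lsingle (b, 0)).comp (Finsupp.lapply (b, 0))) + zop.comp low)
    (fun i => by
      obtain ⟨a, m⟩ := i
      cases m with
      | zero =>
        simp only [LinearMap.id_apply, LinearMap.add_apply, LinearMap.sum_apply,
          LinearMap.comp_apply, Finsupp.lapply_apply, Finsupp.lsingle_apply, low_single_zero,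
          map_zero, add_zero]
        rw [Finset.sum_eq_single a]
        · simp
        · intro b _ hb
          have : ((a, 0) : ι × ℕ) ≠ (b, 0) := fun h => hb (Prod.mk.inj h).1.symm
          rw [Finsupp.single_apply, if_neg this, Finsupp.single_zero]
        · simp
      | succ m =>
        simp only [LinearMap.id_apply, LinearMap.add_apply, LinearMap.sum_apply,
          LinearMap.comp_apply, Finsupp.lapply_apply, Finsupp.lsingle_apply, low_single_succ,
          zop_single]
        rw [Finset.sum_eq_zero, zero_add]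
        intro b _
        rw [Finsupp.single_apply, if_neg (by simp), Finsupp.single_zero]) v
  simpa using this

theorem low_zop (v : ι × ℕ →₀ K) : low (zop v) = v := by
  have := finsupp_lin_ext (f := (low (K := K) (ι := ι)).comp zop)
    (g := LinearMap.id) (fun i => by
      rw [LinearMap.comp_apply, zop_single, low_single_succ]; rfl) v
  simpa using this

theorem low_A0 (v : ι × ℕ →₀ K) : low (D.A0 v) = D.A0 (low v) + low v := by
  ext ⟨x, m⟩
  rw [low_apply, A0_apply, Finsupp.add_apply, A0_apply, low_apply]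
  have : ∑ c, D.R c x * low v (c, m + 1) = ∑ c, D.R c x * v (c, m + 1 + 1) :=
    Finset.sum_congr rfl fun c _ => by rw [low_apply]
  rw [this]
  push_cast
  ring

/-- the component of a vector field along the small phase space -/
noncomputable def VV (D : Coh K ι) (F : List (ι × ℕ) → K) (b : ι)
    (c : List (ι × ℕ) → (ι × ℕ →₀ K)) : List (ι × ℕ) → K :=
  fun L => c L (b, 0) + act D.ip (fun M => low (c M)) (D.u F b) L

/-- **(L1)** -/
theorem act_err (G n : List (ι × ℕ) → K)
    (hG : ∀ (i : ι × ℕ) M, G ((i.1, i.2 + 1) :: M) =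
      ∑ β, sh D.ip (LinearMap.mul K K) M (fun M' => D.u F β (i :: M'))
        (fun M' => G ((β, 0) :: M')) + n (i :: M))
    (c : List (ι × ℕ) → (ι × ℕ →₀ K)) (L : List (ι × ℕ)) :
    act D.ip c G L = ∑ b, sh D.ip (LinearMap.mul K K) L (VV D F b c)
      (fun M => G ((b, 0) :: M)) + act D.ip (fun M => low (c M)) n L := by
  have h1 : c = fun M => (∑ b, Finsupp.single (b, 0) (c M (b, 0))) + zop (low (c M)) :=
    funext fun M => dec (c M)
  have h2 : act D.ip c G L = act D.ip (fun M => ∑ b, Finsupp.single (b, 0) (c M (b, 0))) G L +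
      act D.ip (fun M => zop (low (c M))) G L := by
    conv_lhs => rw [h1]
    exact act_cadd D.ip _ _ G L
  have h3 : act D.ip (fun M => ∑ b, Finsupp.single (b, 0) (c M (b, 0))) G L =
      ∑ b, sh D.ip (LinearMap.mul K K) L (fun M => c M (b, 0)) (fun M => G ((b, 0) :: M)) := by
    rw [act_csum]
    refine Finset.sum_congr rfl fun b _ => ?_
    rw [act_single]
    unfold mulK
    rw [lsmul_eq_mul]
  have h4 : act D.ip (fun M => zop (low (c M))) G L =
      ∑ b, sh D.ip (LinearMap.mul K K) L (act D.ip (fun M => low (c M)) (D.u F b))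
        (fun M => G ((b, 0) :: M)) + act D.ip (fun M => low (c M)) n L := by
    rw [act_cmap D.ip (fun M => low (c M)) zop G L]
    have e1 : (fun (M : List (ι × ℕ)) (i : ι × ℕ) => ev K (ι × ℕ) K (zop (Finsupp.single i 1))
        (fun j => G (j :: M))) = fun M => (fun i => ∑ β, sh D.ip (LinearMap.mul K K) M
        (fun M' => D.u F β (i :: M')) (fun M' => G ((β, 0) :: M'))) + (fun i => n (i :: M)) := by
      funext M i
      rw [zop_single, ev_single, one_smul, hG]
      rfl
    rw [e1, sh_add_right]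
    congr 1
    have e2 : (fun M => (fun i => ∑ β, sh D.ip (LinearMap.mul K K) M
      (fun M' => D.u F β (i :: M')) (fun M' => G ((β, 0) :: M')))) =
      fun M => ∑ β, (fun i => sh D.ip (LinearMap.mul K K) M
      (fun M' => D.u F β (i :: M')) (fun M' => G ((β, 0) :: M'))) := by
      funext M i
      rw [Finset.sum_apply]
    rw [e2, sh_sum_right]
    refine Finset.sum_congr rfl fun β _ => ?_
    exact sh_ev_assoc D.ip (LinearMap.mul K K) (fun M => low (c M))
      (fun M' i => D.u F β (i :: M')) (fun M' => G ((β, 0) :: M')) L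
  rw [h2, h3, h4, ← add_assoc, ← Finset.sum_add_distrib]
  congr 1
  refine Finset.sum_congr rfl fun b _ => ?_
  rw [← sh_add_left]
  rfl

/-- **(L4)** -/
theorem act_nul (n : List (ι × ℕ) → K)
    (hn : ∀ (i : ι × ℕ) M, n ((i.1, i.2 + 1) :: M) =
      ∑ β, sh D.ip (LinearMap.mul K K) M (fun M' => D.u F β (i :: M'))
        (fun M' => n ((β, 0) :: M')))
    (c : List (ι × ℕ) → (ι × ℕ →₀ K)) (L : List (ι × ℕ)) :
    act D.ip c n L = ∑ b, sh D.ip (LinearMap.mul K K) L (VV D F b c)
      (fun M => n ((b, 0) :: M)) := by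
  have h := act_err (D := D) (F := F) n (fun _ => 0) (fun i M => by rw [hn, add_zero]) c L
  rw [act_zero, add_zero] at h
  exact h

/-- **(L5)** -/
theorem act_two (hF : D.Genus0 F) (x y : ι × ℕ) (c : List (ι × ℕ) → (ι × ℕ →₀ K))
    (L : List (ι × ℕ)) : act D.ip c (fun M => F (x :: y :: M)) L =
      ∑ b, sh D.ip (LinearMap.mul K K) L (VV D F b c)
        (fun M => F (x :: y :: (b, 0) :: M)) :=
  act_nul (fun M => F (x :: y :: M)) (fun i M => hF.trr' x y i M) c L

theorem cZ_zero (c : List (ι × ℕ) → (ι × ℕ →₀ K)) (Φ : ι × ℤ → List (ι × ℕ) → K)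
    (L : List (ι × ℕ)) (b : ι) :
    D.cZ c Φ L (b, 0) = - ∑ a, D.etai a b * D.sn a * Φ (a, 0) L := by
  unfold Coh.cZ
  rw [Finsupp.sub_apply, zop_apply_zero, Finsupp.finsetSum_apply, zero_sub]
  congr 1
  refine Finset.sum_congr rfl fun x _ => ?_
  rw [Finsupp.finsetSum_apply]
  simp [Finsupp.single_apply]

theorem cZ_succ (c : List (ι × ℕ) → (ι × ℕ →₀ K)) (Φ : ι × ℤ → List (ι × ℕ) → K)
    (L : List (ι × ℕ)) (b : ι) (m : ℕ) : D.cZ c Φ L (b, m + 1) = c L (b, m) := by
  unfold Coh.cZ
  rw [Finsupp.sub_apply, zop_apply_succ, Finsupp.finsetSum_apply]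
  rw [Finset.sum_eq_zero, sub_zero]
  intro x _
  rw [Finsupp.finsetSum_apply]
  simp [Finsupp.single_apply]

theorem low_cZ (c : List (ι × ℕ) → (ι × ℕ →₀ K)) (Φ : ι × ℤ → List (ι × ℕ) → K)
    (L : List (ι × ℕ)) : low (D.cZ c Φ L) = c L := by
  ext ⟨x, m⟩
  rw [low_apply, cZ_succ]

theorem act_u {c : List (ι × ℕ) → (ι × ℕ →₀ K)} {Φ : ι × ℤ → List (ι × ℕ) → K}
    (hT : D.Tan F c Φ) (b : ι) (L : List (ι × ℕ)) :
    act D.ip c (D.u F b) L = ∑ a, D.etai a b * D.sn a * Φ (a, 0) L := by
  have : D.u F b = fun M => ∑ α, (D.etai α b * D.sn α) * F ((α, 0) :: M) := by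
    funext M; rfl
  rw [this, act_sum]
  refine Finset.sum_congr rfl fun α _ => ?_
  rw [act_mul_const]
  congr 1
  exact (hT α 0 L).symm

/-- **(L2)** -/
theorem VV_Z {c : List (ι × ℕ) → (ι × ℕ →₀ K)} {Φ : ι × ℤ → List (ι × ℕ) → K}
    (hT : D.Tan F c Φ) (b : ι) (L : List (ι × ℕ)) : VV D F b (D.cZ c Φ) L = 0 := by
  unfold VV
  have : (fun M => low (D.cZ c Φ M)) = c := funext fun M => low_cZ c Φ M
  rw [this, cZ_zero, act_u hT]
  ring

/-- the two-point function contracted with the Euler field -/
noncomputable def P0 (D : Coh K ι) (F : List (ι × ℕ) → K) (a b : ι) : List (ι × ℕ) → K :=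
  act D.ip (fun M => D.A0 (tau (D.one, 1) M)) (fun M => F ((a, 0) :: (b, 0) :: M))

/-- multiplication by the Euler field -/
noncomputable def UU (D : Coh K ι) (F : List (ι × ℕ) → K) (b b' : ι) : List (ι × ℕ) → K :=
  fun L => - ∑ a, D.etai a b * P0 D F a b' L

/-- **(L3)** -/
theorem VV_LZ (hev : ∀ a, D.par a = false) (hF : D.Genus0 F)
    {c : List (ι × ℕ) → (ι × ℕ →₀ K)} {Φ : ι × ℤ → List (ι × ℕ) → K}
    (hT : D.Tan F c Φ) (hC : D.Compat c Φ) (b : ι) (L : List (ι × ℕ)) :
    VV D F b (D.cL (D.cZ c Φ)) L =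
      ∑ b', sh D.ip (LinearMap.mul K K) L (UU D F b b') (VV D F b' c) := by
  have hsn := sn_one hev
  -- the action of `A0 c` on one-point functions
  have h1 : ∀ a, act D.ip (fun M => D.A0 (c M)) (fun M => F ((a, 0) :: M)) L =
      D.PL Φ (a, 0) L - ∑ b', sh D.ip (LinearMap.mul K K) L (VV D F b' c) (P0 D F a b') := by
    intro a
    have e1 : act D.ip c (fun M => act D.ip (fun M => D.A0 (tau (D.one, 1) M))
        (fun M => F ((a, 0) :: M)) M) L = act D.ip c (D.PL (D.Phi0 F) (a, ((0 : ℕ) : ℤ))) L := by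
      congr 1
      funext M
      exact tan_base hF a 0 M
    have e2 : act D.ip c (D.PL (D.Phi0 F) (a, ((0 : ℕ) : ℤ))) L = D.PL Φ (a, 0) L := by
      unfold Coh.PL
      simp only
      rw [act_neg, act_add, act_mul_const, act_sum, act_Phi0 hT hC]
      congr 2
      refine Finset.sum_congr rfl fun b _ => ?_
      rw [act_mul_const, act_Phi0 hT hC]
      rfl
    have e3 : (fun M => act D.ip (fun M => D.A0 (tau (K := K) (D.one, 1) M))
        (fun M => F ((a, 0) :: M)) M) = fun M => sh D.ip (ev K (ι × ℕ) K) M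
        (fun M => D.A0 (tau (D.one, 1) M)) (fun M i => F ((a, 0) :: i :: M)) := rfl
    rw [e3, act_sh D.ip _ (pv hev c), e2] at e1
    have e5 : act D.ip c (fun M => D.A0 (tau (D.one, 1) M)) = fun M => D.A0 (c M) := by
      funext M
      rw [act_comp, act_coord D.ip c (tau (D.one, 1)) (tau_cons (D.one, 1)) M]
    have e6 : act D.ip c (fun M i => F ((a, 0) :: i :: M)) = fun M => ∑ b' : ι,
        (fun i => sh D.ip (LinearMap.mul K K) M (fun M' => VV D F b' c M')
          (fun M' => F ((a, 0) :: (b', 0) :: i :: M'))) := by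
      funext M i
      rw [act_apply, act_two hF (a, 0) i c M, Finset.sum_apply]
      refine Finset.sum_congr rfl fun b' _ => ?_
      congr 1
      funext M'
      exact sym3 hev hF.symm _ _ _ _
    have e7 : sh D.ip (ev K (ι × ℕ) K) L (fun M => D.A0 (tau (D.one, 1) M))
        (act D.ip c (fun M i => F ((a, 0) :: i :: M))) =
        ∑ b', sh D.ip (LinearMap.mul K K) L (VV D F b' c) (P0 D F a b') := by
      rw [e6, sh_sum_right]
      refine Finset.sum_congr rfl fun b' _ => ?_
      have := sh_comm_ev D.ip (LinearMap.mul K K)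
        (pv hev (fun M => D.A0 (tau (K := K) (D.one, 1) M))) L (VV D F b' c)
        (fun M i => F ((a, 0) :: (b', 0) :: i :: M))
      simp only [lsg_one hev, one_smul] at this
      exact this
    rw [e5, e7] at e1
    have e8 : act D.ip (fun M => D.A0 (c M)) (fun M => F ((a, 0) :: M)) L =
      sh D.ip (ev K (ι × ℕ) K) L (fun M => D.A0 (c M)) (fun M i => F ((a, 0) :: i :: M)) := rfl
    rw [e8]
    linear_combination e1
  -- unfold the left side
  have h2 : (fun M => low (D.cL (D.cZ c Φ) M)) = fun M => D.A0 (c M) + c M := by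
    funext M
    unfold Coh.cL
    rw [low_A0, low_cZ]
  have h3 : act D.ip (fun M => D.A0 (c M)) (D.u F b) L =
      ∑ a, D.etai a b * act D.ip (fun M => D.A0 (c M)) (fun M => F ((a, 0) :: M)) L := by
    have : D.u F b = fun M => ∑ α, (D.etai α b) * F ((α, 0) :: M) := by
      funext M
      unfold Coh.u
      simp only [hsn, mul_one]
    rw [this, act_sum]
    exact Finset.sum_congr rfl fun α _ => act_mul_const _ _ _ _ _
  have h4 : VV D F b (D.cL (D.cZ c Φ)) L =
      (D.half + D.mu b) * (- ∑ a, D.etai a b * Φ (a, 0) L) + ∑ x, D.R x b * c L (x, 0) +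
      (∑ a, D.etai a b * act D.ip (fun M => D.A0 (c M)) (fun M => F ((a, 0) :: M)) L +
        ∑ a, D.etai a b * Φ (a, 0) L) := by
    unfold VV
    rw [h2, act_cadd, h3, act_u hT]
    have e1 : D.cL (D.cZ c Φ) L (b, 0) =
        (D.half + D.mu b) * (- ∑ a, D.etai a b * Φ (a, 0) L) + ∑ x, D.R x b * c L (x, 0) := by
      unfold Coh.cL
      rw [A0_apply, cZ_zero]
      simp only [hsn, mul_one]
      congr 1
      · push_cast; ring
      · exact Finset.sum_congr rfl fun x _ => by rw [zero_add, ← zero_add 1, cZ_succ]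
    rw [e1]
    simp only [hsn, mul_one]
  -- the two groups of terms
  have h5 : ∑ a, D.etai a b * D.PL Φ (a, 0) L =
      - ((D.half - D.mu b) * ∑ a, D.etai a b * Φ (a, 0) L) - ∑ x, D.R x b * c L (x, 0) := by
    have e1 : ∀ a, D.etai a b * D.PL Φ (a, 0) L =
        - ((D.half - D.mu b) * (D.etai a b * Φ (a, 0) L)) -
          ∑ y, (∑ x, D.etai a b * (D.R a x * D.eta x y)) * c L (y, 0) := by
      intro a
      unfold Coh.PL
      simp only [Int.cast_zero, zero_add, zero_sub]
      have e2 : ∀ x, Φ (x, -1) L = ∑ y, D.eta x y * c L (y, 0) := by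
        intro x
        have := hC x 0 L
        simpa using this
      simp only [e2]
      have e3 : D.etai a b * (D.half + D.mu a) = (D.half - D.mu b) * D.etai a b := by
        by_cases he : D.etai a b = 0
        · rw [he]; ring
        · have := D.etai_mu a b he
          linear_combination (D.etai a b) * this
      have e4 : D.etai a b * ∑ x, D.R a x * ∑ y, D.eta x y * c L (y, 0) =
          ∑ y, (∑ x, D.etai a b * (D.R a x * D.eta x y)) * c L (y, 0) := by
        simp only [Finset.mul_sum, Finset.sum_mul]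
        rw [Finset.sum_comm]
        exact Finset.sum_congr rfl fun y _ => Finset.sum_congr rfl fun x _ => by ring
      rw [← e4]
      linear_combination (- Φ (a, 0) L) * e3
    rw [Finset.sum_congr rfl fun a _ => e1 a, Finset.sum_sub_distrib, Finset.sum_neg_distrib,
      ← Finset.mul_sum]
    congr 1
    rw [Finset.sum_comm]
    refine Finset.sum_congr rfl fun y _ => ?_
    rw [← Finset.sum_mul]
    congr 1
    have e5 : ∀ a, ∑ x, D.etai a b * (D.R a x * D.eta x y) =
        ∑ x, D.etai a b * (D.eta a x * D.R y x) := by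
      intro a
      rw [← Finset.mul_sum, ← Finset.mul_sum, D.R_symm]
    rw [Finset.sum_congr rfl fun a _ => e5 a, Finset.sum_comm]
    have e6 : ∀ x, ∑ a, D.etai a b * (D.eta a x * D.R y x) =
        (if b = x then 1 else 0) * D.R y x := by
      intro x
      rw [← D.etai_eta b x, Finset.sum_mul]
      refine Finset.sum_congr rfl fun a _ => ?_
      rw [hsn]; ring
    rw [Finset.sum_congr rfl fun x _ => e6 x]
    simp
  have h6 : ∑ b', sh D.ip (LinearMap.mul K K) L (UU D F b b') (VV D F b' c) =
      - ∑ a, D.etai a b * ∑ b', sh D.ip (LinearMap.mul K K) L (VV D F b' c) (P0 D F a b') := by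
    have e1 : ∀ b', sh D.ip (LinearMap.mul K K) L (UU D F b b') (VV D F b' c) =
        - ∑ a, D.etai a b * sh D.ip (LinearMap.mul K K) L (VV D F b' c) (P0 D F a b') := by
      intro b'
      have e2 : UU D F b b' = fun M => - ∑ a, D.etai a b • P0 D F a b' M := rfl
      rw [e2, sh_neg_left, sh_sum_left]
      congr 1
      refine Finset.sum_congr rfl fun a _ => ?_
      rw [sh_smul_left, smul_eq_mul, sh_mul_comm D.ip false L (P0 D F a b') (VV D F b' c)
        (fun b M => by rw [lsg_one hev, one_mul, sg_false_right, one_mul])]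
      congr 2
      funext M
      rw [lsg_one hev, one_mul]
    rw [Finset.sum_congr rfl fun b' _ => e1 b', Finset.sum_neg_distrib, Finset.sum_comm]
    congr 1
    exact Finset.sum_congr rfl fun a _ => by rw [Finset.mul_sum]
  rw [h4, h6]
  have h7 : ∑ a, D.etai a b * act D.ip (fun M => D.A0 (c M)) (fun M => F ((a, 0) :: M)) L =
      ∑ a, D.etai a b * D.PL Φ (a, 0) L - ∑ a, D.etai a b *
        ∑ b', sh D.ip (LinearMap.mul K K) L (VV D F b' c) (P0 D F a b') := by
    rw [← Finset.sum_sub_distrib]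
    exact Finset.sum_congr rfl fun a _ => by rw [h1 a]; ring
  rw [h7, h5]
  have h8 := D.two_half
  linear_combination (- ∑ a, D.etai a b * Φ (a, 0) L) * h8

end Vale.Agent.P269.G1.H333
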