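import Vale.Agent.P269.H597.Commutator

/-!
# Functions of lists as a commutative ring under the shuffle product (even variables)
-/

namespace Vale.Agent.P269.G1.H333

open Vale.Agent.P269.H597

/-- functions of lists -/
def Fn (I K : Type*) := List I → K

variable {I K : Type*} [CommRing K]

/-- all insertions are even -/
abbrev ev0 (I : Type*) : I → Bool := fun _ => false

theorem lsg0 (a : Bool) (L : List I) : lsg K (ev0 I) a L = 1 := by
  induction L with
  | nil => simp
  | cons i L ih => rw [lsg_cons, ih, sg_false_right, mul_one]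

instance : AddCommGroup (Fn I K) := inferInstanceAs (AddCommGroup (List I → K))

instance : Mul (Fn I K) := ⟨fun f g => fun L => sh (ev0 I) (LinearMap.mul K K) L f g⟩

instance : One (Fn I K) := ⟨(cst 1 : List I → K)⟩

theorem Fn.mul_def (f g : Fn I K) (L : List I) :
    (f * g) L = sh (ev0 I) (LinearMap.mul K K) L f g := rfl

theorem Fn.mul_comm' (f g : Fn I K) : f * g = g * f := by
  funext L
  rw [Fn.mul_def, Fn.mul_def, sh_mul_comm (ev0 I) false L f g (fun b M => by
    rw [lsg0, one_mul, sg_false_right, one_mul])]
  congr 1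
  funext M
  rw [lsg0, one_mul]

theorem Fn.mul_assoc' (f g h : Fn I K) : f * g * h = f * (g * h) := by
  funext L
  exact sh_assoc (ev0 I) (LinearMap.mul K K) (LinearMap.mul K K) (LinearMap.mul K K)
    (LinearMap.mul K K) (fun v w y => by simp [mul_assoc]) L f g h

theorem Fn.one_mul' (f : Fn I K) : 1 * f = f := by
  funext L
  have h := sh_cst_left (ev0 I) (LinearMap.mul K K) L (1 : K) f
  rw [LinearMap.mul_apply', one_mul] at h
  exact h

theorem Fn.left_distrib' (f g h : Fn I K) : f * (g + h) = f * g + f * h := by
  funext L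
  exact sh_add_right (ev0 I) (LinearMap.mul K K) L f g h

instance : CommRing (Fn I K) :=
  { (inferInstance : AddCommGroup (Fn I K)) with
    mul := (· * ·)
    one := 1
    mul_comm := Fn.mul_comm'
    mul_assoc := Fn.mul_assoc'
    one_mul := Fn.one_mul'
    mul_one := fun x => by rw [Fn.mul_comm', Fn.one_mul']
    left_distrib := Fn.left_distrib'
    right_distrib := fun x y z => by
      rw [Fn.mul_comm', Fn.left_distrib', Fn.mul_comm' z x, Fn.mul_comm' z y]
    zero_mul := fun x => by
      funext L
      exact sh_zero_left (ev0 I) (LinearMap.mul K K) L x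
    mul_zero := fun x => by
      funext L
      exact sh_zero_right (ev0 I) (LinearMap.mul K K) L x }

theorem Fn.add_apply (f g : Fn I K) (L : List I) : (f + g) L = f L + g L := rfl
theorem Fn.neg_apply (f : Fn I K) (L : List I) : (-f) L = - f L := rfl
theorem Fn.sub_apply (f g : Fn I K) (L : List I) : (f - g) L = f L - g L := rfl
theorem Fn.zero_apply (L : List I) : (0 : Fn I K) L = 0 := rfl

theorem Fn.sum_apply {σ : Type*} (s : Finset σ) (f : σ → Fn I K) (L : List I) :
    (∑ x ∈ s, f x) L = ∑ x ∈ s, f x L :=
  Finset.sum_apply (M := fun _ : List I => K) L s f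

/-- constants -/
def Fn.C : K →+* Fn I K where
  toFun k := (cst k : List I → K)
  map_one' := rfl
  map_mul' a b := by
    funext L
    change (cst (a * b) : List I → K) L =
      sh (ev0 I) (LinearMap.mul K K) L (cst a : List I → K) (cst b)
    rw [sh_cst_left (ev0 I) (LinearMap.mul K K) L a (cst b)]
    cases L <;> simp
  map_zero' := by
    funext L
    cases L <;> rfl
  map_add' a b := by
    funext L
    cases L with
    | nil => rfl
    | cons i L =>
      change (0 : K) = 0 + 0
      rw [add_zero]

theorem Fn.C_mul (k : K) (f : Fn I K) (L : List I) : ((Fn.C k : Fn I K) * f) L = k * f L :=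
  sh_cst_left (ev0 I) (LinearMap.mul K K) L k f

theorem Fn.C_mul' (k : K) (f : Fn I K) : (Fn.C k : Fn I K) * f = fun L => k * f L := by
  funext L
  exact Fn.C_mul k f L

/-- the derivation `∂_i` -/
def dl (i : I) (f : Fn I K) : Fn I K := fun L => f (i :: L)

theorem dl_add (i : I) (f g : Fn I K) : dl i (f + g) = dl i f + dl i g := rfl

theorem dl_neg (i : I) (f : Fn I K) : dl i (- f) = - dl i f := rfl

theorem dl_zero (i : I) : dl i (0 : Fn I K) = 0 := rfl

theorem dl_mul (i : I) (f g : Fn I K) : dl i (f * g) = dl i f * g + f * dl i g := by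
  funext L
  have h : (fun M => lsg K (ev0 I) (ev0 I i) M • (f : List I → K) M) = f := by
    funext M
    rw [lsg0, one_smul]
  have h2 := sh_cons (ev0 I) (LinearMap.mul K K) i L (f : List I → K) g
  rw [h] at h2
  exact h2

theorem dl_sum {σ : Type*} (i : I) (s : Finset σ) (f : σ → Fn I K) :
    dl i (∑ x ∈ s, f x) = ∑ x ∈ s, dl i (f x) := by
  funext L
  change (∑ x ∈ s, f x) (i :: L) = (∑ x ∈ s, dl i (f x)) L
  rw [Fn.sum_apply, Fn.sum_apply]
  rfl

theorem dl_C (i : I) (k : K) : dl i (Fn.C k) = 0 := rfl

theorem dl_one (i : I) : dl i (1 : Fn I K) = 0 := rfl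

/-- the derivation as a linear map over `ℤ`, for matrices -/
def dlh (i : I) : Fn I K →+ Fn I K where
  toFun := dl i
  map_zero' := dl_zero i
  map_add' := dl_add i

/-- derivative of a trace of a power, for a matrix whose derivative is `w` up to a commutator -/
theorem tr_pow {ι : Type*} [Fintype ι] [DecidableEq ι] (i : I) (U w M : Matrix ι ι (Fn I K))
    (hU : ∀ a b, dl i (U a b) = w a b + (w * M) a b - (M * w) a b) (hc : U * w = w * U) (k : ℕ) :
    dl i ((U ^ (k + 1)).trace) = ((k + 1 : ℕ) : Fn I K) * (U ^ k * w).trace := by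
  -- derivative of a power
  let D : Matrix ι ι (Fn I K) → Matrix ι ι (Fn I K) := fun A => Matrix.of fun a b => dl i (A a b)
  have hD : ∀ A B, D (A * B) = D A * B + A * D B := by
    intro A B
    ext a b
    simp only [D, Matrix.of_apply, Matrix.mul_apply, Matrix.add_apply]
    rw [dl_sum, ← Finset.sum_add_distrib]
    refine Finset.sum_congr rfl fun x _ => ?_
    rw [dl_mul]
  have hD1 : D U = w + w * M - M * w := by
    ext a b
    simp only [D, Matrix.of_apply, Matrix.add_apply, Matrix.sub_apply]
    exact hU a b
  have htr : ∀ A, dl i A.trace = (D A).trace := by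
    intro A
    unfold Matrix.trace
    rw [dl_sum]
    rfl
  have hcc : ∀ j, U ^ j * w = w * U ^ j := by
    intro j
    exact (Commute.pow_left (show Commute U w from hc) j).eq
  have key : ∀ (j : ℕ) (B : Matrix ι ι (Fn I K)), (∀ l : ℕ, B * U ^ l = U ^ l * B) →
      (D (U ^ j) * B).trace = (j : Fn I K) * (U ^ (j - 1) * D U * B).trace := by
    intro j
    induction j with
    | zero =>
      intro B _
      have : D (U ^ 0) = 0 := by
        ext a b
        simp only [D, pow_zero, Matrix.of_apply, Matrix.one_apply, Matrix.zero_apply]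
        split
        · exact dl_one i
        · exact dl_zero i
      rw [this]
      simp
    | succ j ih =>
      intro B hB
      rw [pow_succ, hD, add_mul, Matrix.trace_add]
      have e1 : (D (U ^ j) * U * B).trace = (j : Fn I K) * (U ^ (j - 1) * D U * (U * B)).trace := by
        rw [mul_assoc, ih (U * B) (fun l => by
          rw [mul_assoc, hB, ← mul_assoc, ← mul_assoc, ← pow_succ', ← pow_succ])]
      have hBU : B * U = U * B := by simpa using hB 1
      have e2 : (j : Fn I K) * (U ^ (j - 1) * D U * (U * B)).trace =
          (j : Fn I K) * (U ^ j * D U * B).trace := by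
        cases j with
        | zero => simp
        | succ j =>
          congr 1
          rw [Nat.add_sub_cancel, ← hBU]
          rw [← mul_assoc, Matrix.trace_mul_comm (U ^ j * D U * B) U]
          rw [pow_succ']
          simp only [mul_assoc]
      rw [e1, e2, Nat.add_sub_cancel]
      push_cast
      ring
  rw [htr]
  have h1 := key (k + 1) 1 (fun l => by rw [one_mul, mul_one])
  rw [mul_one, mul_one, Nat.add_sub_cancel] at h1
  rw [h1, hD1]
  congr 1
  rw [mul_sub, mul_add, Matrix.trace_sub, Matrix.trace_add]
  have h2 : (U ^ k * (w * M)).trace = (U ^ k * (M * w)).trace := by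
    rw [← mul_assoc, hcc, mul_assoc, Matrix.trace_mul_comm w (U ^ k * M), mul_assoc]
  rw [h2]
  ring

end Vale.Agent.P269.G1.H333
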